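import Crest.Agent.X261.Jet.TbC
import Crest.Agent.X261.Hs.G
import Crest.Agent.R273.FS_333
import Crest.Agent.R273.NVPow_578
import Crest.Agent.R271.RExt1_747

/-!
# Row 261, FIB/Sep (helper93), file `A`: pointwise calculus

* `ep0 A a` : the polyvector dual to `da_1 ∧ … ∧ da_q`; `isV_ep0`, `ep0_hol`;
* `ps a t` : the weight `|a - t|²`; `hq_ps`, `gq_le`;
* `delV_zero` : `Φ(a) ep0` is co-closed;
* `exists_ratio` : a holomorphic polyvector killed by all `da_k` is `h ep0` in degree `n - q`;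
* `eval_le` : the `L²` mean value inequality at a point.
-/

set_option autoImplicit false
set_option linter.unusedSectionVars false

open Set Filter Topology Complex Matrix MeasureTheory Metric
open scoped ContDiff Matrix ComplexConjugate ENNReal

namespace Crest.Agent.X261.Sep93

open Crest.Agent.R275 Crest.Agent.R275.Geo Crest.Agent.R275.Core144
open Crest.Agent.R275.OmT75 (dl dj dj_holo dl_chain)
open Crest.Agent.R273.Defs_333 Crest.Agent.R273.Kah_333 Crest.Agent.R273.Vm_333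
open Crest.Agent.R273.Fock_243
open Crest.Agent.R273.Berezin_505 (Sbi Sbi_mulVec)
open Crest.Agent.R273.Calc_243 (dS dV dS_congr dV_smul dV_const_mulVec)
open Crest.Agent.R273.BKNa_37 (IsV delV dbV dl_eq_dS)
open Crest.Agent.T223.Hm (hq ix ix_mem cz sz Tz isOpen_Tz cz_mem sz_cz contOn_sz)
open Crest.Agent.X261.Top (wdg dW HolV)
open Crest.Agent.X261.Jet.Tb
open Crest.Agent.X277.AN (gf gq)

noncomputable section

variable {n q : ℕ} {M : Type} [TopologicalSpace M] {A : Atl n M} {a : M → Cn q} {i j : A.ι}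
  {x : M}

theorem dA (ha : HolV A univ a) (i : A.ι) (k : Fin q) :
    DifferentiableOn ℂ (fun z => a ((A.e i).symm z) k) (A.e i).target :=
  (EuclideanSpace.proj k : Cn q →L[ℂ] ℂ).differentiable.comp_differentiableOn
    ((ha i).mono fun _ hz => ⟨hz, mem_univ _⟩)

theorem dAt (ha : HolV A univ a) (hx : x ∈ (A.e i).source) (k : Fin q) :
    DifferentiableAt ℂ (fun z => a ((A.e i).symm z) k) (A.e i x) :=
  (dA ha i k).differentiableAt ((A.e i).open_target.mem_nhds ((A.e i).map_source hx))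

theorem dp_eq (ha : HolV A univ a) (hx : x ∈ (A.e i).source) (k : Fin q) (c : Fin n) :
    dp A i a x k c = fderiv ℂ (fun z => a ((A.e i).symm z) k) (A.e i x)
      (EuclideanSpace.single c 1) := dj_holo (dAt ha hx k)

theorem dp_hol (ha : HolV A univ a) (i : A.ι) (k : Fin q) (c : Fin n) :
    HolAt A i univ fun y => dp A i a y k c := by
  have h1 := (Crest.Agent.R266.SCV.analyticOnNhd_of_differentiableOn (A.e i).open_target
    (dA ha i k)).fderiv.differentiableOn.clm_apply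
    (differentiableOn_const (EuclideanSpace.single c (1 : ℂ) : Cn n))
  refine (h1.mono inter_subset_left).congr fun z hz => ?_
  refine (dp_eq ha ((A.e i).map_target hz.1) k c).trans ?_
  rw [(A.e i).right_inv hz.1]

theorem dW_hol (ha : HolV A univ a) (i : A.ι) (S : FI n) :
    HolAt A i univ fun y => dW A i a y S := by
  by_cases h : S.card = q
  · have : (fun y => dW A i a y S) = fun y =>
        (Matrix.of fun k l : Fin q => dp A i a y k (S.orderEmbOfFin h l)).det := by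
      funext y
      exact dif_pos h
    rw [this]
    simp only [Matrix.det_apply']
    exact HolAt.sum _ fun σ _ => HolAt.const_mul _ (HolAt.prod _ fun k _ => dp_hol ha i _ _)
  · exact (holAt_const 0).congr fun y _ _ => (dg_dW S h).symm

theorem dW_tr (ha : HolV A univ a) (hx : x ∈ (A.e i).source ∩ (A.e j).source) :
    dW A i a x = Gam (Jm A i j x)ᵀ *ᵥ dW A j a x := by
  rw [dW_dp, dW_dp, Gam_wdg]
  congr 1
  funext k c
  rw [dp, dl_chain (j := j) (f := fun y => a y k) ((dAt ha hx.2 k).restrictScalars ℝ) hx c]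
  simp [Matrix.mulVec, dotProduct, dp]

/-- the polyvector dual to `da_1 ∧ … ∧ da_q` -/
def ep0 (A : Atl n M) (a : M → Cn q) (i : A.ι) (x : M) : FI n → ℂ := Sbi ℂ n *ᵥ dW A i a x

theorem ep0_hol (ha : HolV A univ a) (i : A.ι) (S : FI n) :
    HolAt A i univ fun y => ep0 A a i y S := by
  simp only [ep0, Sbi_mulVec]
  exact (dW_hol ha i _).const_mul _

theorem smAt_of_hol {f : M → ℂ} (h : HolAt A i univ f) : A.SmAt i f :=
  (h.contDiffOn isOpen_univ).mono fun _ hz => ⟨hz, mem_univ _⟩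

theorem isV_ep0 (ha : HolV A univ a) : IsV (KB A) (ep0 A a) where
  sm i S := smAt_of_hol (ep0_hol ha i S)
  tr i j x hx := by
    rw [ep0, ep0, dW_tr ha hx, KB_g hx]
    exact Gam_Sbi (by rw [J_mul i j i ⟨hx, hx.1⟩, J_self i hx.1]) _

theorem ep0_ne {R : Set M} (H : Sbm A R a) (hx : x ∈ R) (hi : x ∈ (A.e i).source) :
    ep0 A a i x ≠ 0 := fun h => H.dW_ne hx hi (Sbi_eq_zero h)

/-! ### the weight -/

/-- the weight `|a - t|²` -/
def ps (a : M → Cn q) (t : Cn q) (x : M) : ℝ := ∑ k, ‖a x k - t k‖ ^ 2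

theorem ps_eq (t : Cn q) (x : M) : ps a t x = ‖a x - t‖ ^ 2 := by
  rw [EuclideanSpace.norm_sq_eq]
  rfl

theorem ps_nonneg (t : Cn q) (x : M) : 0 ≤ ps a t x := by
  rw [ps_eq]
  positivity

theorem sm_a (ha : HolV A univ a) : A.Sm a := fun i _ hz =>
  (Crest.Agent.R273.FS_333.contDiffAt_of_hol (A.e i).open_target
    ((ha i).mono fun _ hz => ⟨hz, mem_univ _⟩) hz).contDiffWithinAt

theorem sm_ps (ha : HolV A univ a) (t : Cn q) : A.Sm (ps a t) := fun i => by
  simp only [ps_eq]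
  exact ((sm_a ha i).sub contDiffOn_const).norm_sq ℝ

theorem fd_sub (ha : HolV A univ a) (t : Cn q) (hx : x ∈ (A.e i).source) (k : Fin q) (c : Fin n) :
    fderiv ℂ (fun z => a ((A.e i).symm z) k - t k) (A.e i x) (EuclideanSpace.single c 1) =
      dp A i a x k c := by
  rw [fderiv_sub_const, dp_eq ha hx]

theorem hq_ps (ha : HolV A univ a) (t : Cn q) (hx : x ∈ (A.e i).source) (ξ : Fin n → ℂ) :
    hq (hsf A (ps a t) i x) ξ = ∑ k, ‖∑ c, dp A i a x k c * ξ c‖ ^ 2 := by
  have h1 : ∀ b c, hsf A (ps a t) i x b c = ∑ k, dp A i a x k b * conj (dp A i a x k c) :=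
    fun b c => by
      have h2 := Crest.Agent.R273.FS_333.hess_sq (F := fun z k => a ((A.e i).symm z) k - t k)
        (A.e i).open_target (fun k => (dA ha i k).sub_const _) ((A.e i).map_source hx) b c
      simp only [fd_sub ha t hx] at h2
      exact h2
  have h2 : star ξ ⬝ᵥ ((hsf A (ps a t) i x)ᵀ *ᵥ ξ) =
      ∑ k, (∑ c, dp A i a x k c * ξ c) * conj (∑ c, dp A i a x k c * ξ c) := by
    simp only [dotProduct, Matrix.mulVec, Matrix.transpose_apply, h1, map_sum, map_mul,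
      Pi.star_apply, Complex.star_def, Finset.sum_mul, Finset.mul_sum]
    refine Finset.sum_comm.trans ?_
    refine (Finset.sum_congr rfl fun _ _ => Finset.sum_comm).trans (Finset.sum_comm.trans ?_)
    refine Finset.sum_congr rfl fun _ _ => Finset.sum_comm.trans ?_
    exact Finset.sum_congr rfl fun _ _ => Finset.sum_congr rfl fun _ _ => by ring
  unfold hq
  rw [h2, Complex.re_sum]
  refine Finset.sum_congr rfl fun k _ => ?_
  rw [Complex.mul_conj, Complex.ofReal_re, Complex.normSq_eq_norm_sq]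

theorem gq_le (ha : HolV A univ a) (t : Cn q) (hx : x ∈ (A.e i).source) (ξ : Fin n → ℂ) :
    gq A (ps a t) i x ξ ≤ ps a t x * hq (hsf A (ps a t) i x) ξ := by
  have h1 : ∀ c, gf A (ps a t) i x c = ∑ k, dp A i a x k c * conj (a x k - t k) := fun c => by
    have h2 := Crest.Agent.R273.FS_333.wd_sq' (F := fun z k => a ((A.e i).symm z) k - t k)
      (A.e i).open_target (fun k => (dA ha i k).sub_const _) ((A.e i).map_source hx) c
    simp only [fd_sub ha t hx, (A.e i).left_inv hx] at h2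
    exact h2
  have h2 : ∑ c, gf A (ps a t) i x c * ξ c =
      ∑ k, conj (a x k - t k) * ∑ c, dp A i a x k c * ξ c := by
    simp only [h1, Finset.sum_mul, Finset.mul_sum]
    exact Finset.sum_comm.trans
      (Finset.sum_congr rfl fun _ _ => Finset.sum_congr rfl fun _ _ => by ring)
  rw [gq, h2, hq_ps ha t hx, ps]
  refine (pow_le_pow_left₀ (norm_nonneg _) (norm_sum_le _ _) 2).trans ?_
  simp only [norm_mul, Complex.norm_conj]
  exact Finset.sum_mul_sq_le_sq_mul_sq _ _ _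

/-! ### co-closed fields -/

theorem delV_congr {L : LB A} (h : HM L) {v : A.ι → M → FI n → ℂ} {u : M → FI n → ℂ}
    (hx : x ∈ (A.e i).source) (e : ∀ᶠ y in 𝓝 x, (h.w i y : ℂ) • v i y = u y) :
    delV h v i x = ((h.w i x : ℂ))⁻¹ •
      ∑ l, iW (ep l) *ᵥ dV (-I) l (fun z => u ((A.e i).symm z)) (A.e i x) := by
  unfold delV
  congr 1
  refine Finset.sum_congr rfl fun l _ => ?_
  congr 1
  funext T
  exact (dl_congr' (g := fun y => u y T) hx (e.mono fun y hy => congrFun hy T) l).trans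
    (dl_eq_dS _ _ _ _)

theorem delV_zero {L : LB A} (h : HM L) {v : A.ι → M → FI n → ℂ} {R : Set M} (H : Sbm A R a)
    (hx : x ∈ R) (hi : x ∈ (A.e i).source) {Φ : Cn q → ℂ} (hΦ : DifferentiableAt ℝ Φ (a x))
    (e : ∀ᶠ y in 𝓝 x, (h.w i y : ℂ) • v i y = Φ (a y) • ep0 A a i y) : delV h v i x = 0 := by
  have h1 : DifferentiableAt ℝ (fun z => Φ (a ((A.e i).symm z))) (A.e i x) :=
    DifferentiableAt.comp (g := Φ) _ (by rwa [(A.e i).left_inv hi])
      ((H.anAt hx hi).differentiableAt.restrictScalars ℝ)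
  have h2 : ∀ S, DifferentiableAt ℝ (fun z => dW A i a ((A.e i).symm z) S) (A.e i x) := fun S =>
    ((H.dW_hol i S).diffAt H.opn hi hx).restrictScalars ℝ
  have h3 : ∀ S, DifferentiableAt ℝ (fun z => ep0 A a i ((A.e i).symm z) S) (A.e i x) := fun S => by
    simp only [ep0, Sbi_mulVec]
    exact (h2 _).const_mul _
  have h4 : ∀ l, dV (-I) l (fun z => ep0 A a i ((A.e i).symm z)) (A.e i x) =
      Sbi ℂ n *ᵥ fun S => dl A i l (fun y => dW A i a y S) x := fun l => by
    refine (dV_const_mulVec _ h2).trans ?_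
    congr 1
    funext S
    rw [dl_eq_dS]
    rfl
  have h5 := H.eW_dl_comp hx hi (b := fun y => Φ (a y)) hΦ (Eventually.of_forall fun _ => rfl)
  have h6 := H.dW_closed hx hi
  rw [delV_congr h hi e]
  simp only [dV_smul h1 h3, h4]
  simp only [Matrix.mulVec_add, Matrix.mulVec_smul, Finset.sum_add_distrib,
    (A.e i).left_inv hi, ep0, iW_Sbi]
  rw [eW_eq_sum, Matrix.sum_mulVec] at h5
  simp only [Matrix.smul_mulVec, dl_eq_dS] at h5
  have h7 : ∑ l, dS (-I) l (fun z => Φ (a ((A.e i).symm z))) (A.e i x) •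
      -(Sbi ℂ n *ᵥ (eW (ep l) *ᵥ dW A i a x)) = 0 := by
    simp only [smul_neg, Finset.sum_neg_distrib, ← Matrix.mulVec_smul (Sbi ℂ n)]
    rw [← Matrix.mulVec_sum, h5, Matrix.mulVec_zero, neg_zero]
  rw [h7, ← Finset.smul_sum, Finset.sum_neg_distrib, ← Matrix.mulVec_sum, h6, Matrix.mulVec_zero,
    neg_zero, smul_zero, add_zero, smul_zero]

theorem delV_zero' {L : LB A} (h : HM L) {v : A.ι → M → FI n → ℂ} (hi : x ∈ (A.e i).source)
    (e : ∀ᶠ y in 𝓝 x, v i y = 0) : delV h v i x = 0 := by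
  rw [delV_congr h (u := fun _ => 0) hi (e.mono fun y hy => by rw [hy, smul_zero])]
  have : ∀ l, dV (-I) l (fun _ : Cn n => (0 : FI n → ℂ)) (A.e i x) = 0 := fun l => by
    funext S
    simp [dV, dS]
  simp [this]

theorem dbV_congr {v w : A.ι → M → FI n → ℂ} (hi : x ∈ (A.e i).source)
    (e : ∀ᶠ y in 𝓝 x, v i y = w i y) (k : Fin n) : dbV v i k x = dbV w i k x := by
  funext T
  exact dS_congr (s := I) (ev_read (P := fun y => v i y T = w i y T) hi
    (e.mono fun y hy => congrFun hy T))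

theorem dbV_zero {v : A.ι → M → FI n → ℂ} (hi : x ∈ (A.e i).source)
    (e : ∀ᶠ y in 𝓝 x, v i y = 0) (k : Fin n) : dbV v i k x = 0 := by
  rw [dbV_congr (w := fun _ _ => 0) hi e]
  funext T
  simp [dbV, Atl.db, dbj]

/-! ### the ratio -/

theorem exists_ratio [Countable A.ι] (ha : HolV A univ a) {R : Set M} (H : Sbm A R a)
    {V : A.ι → M → FI n → ℂ} (hV : IsV (KB A) V) (hh : ∀ i S, HolAt A i univ fun y => V i y S)
    {r : ℕ} (hr : q + r = n)
    (h0 : ∀ i, ∀ x ∈ R, x ∈ (A.e i).source → ∀ k, iW (dp A i a x k) *ᵥ V i x = 0) :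
    ∃ h : M → ℂ, (∀ i, HolAt A i R h) ∧
      ∀ i, ∀ x ∈ R, x ∈ (A.e i).source → prj r (V i x) = h x • ep0 A a i x := by
  have h1 : ∀ x, ∃ c : ℂ, x ∈ R → prj r (V (ix A x) x) = c • ep0 A a (ix A x) x := fun x => by
    by_cases hx : x ∈ R
    · obtain ⟨c, hc⟩ := eq_smul_Sbi hr (H.dual hx (ix_mem x)).choose_spec (dg_prj r _)
        fun k => iW_prj (h0 _ x hx (ix_mem x) k) r
      exact ⟨c, fun _ => hc⟩
    · exact ⟨0, fun h => absurd h hx⟩
  choose h hc using h1
  have h2 : ∀ i, ∀ x ∈ R, x ∈ (A.e i).source → prj r (V i x) = h x • ep0 A a i x :=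
    fun i x hx hi => by
      rw [hV.tr i _ x ⟨hi, ix_mem x⟩, (isV_ep0 ha).tr i _ x ⟨hi, ix_mem x⟩, prj_smul, ← Gam_prj,
        hc x hx, Matrix.mulVec_smul, smul_comm]
  refine ⟨h, fun i z hz => ?_, h2⟩
  have hi := (A.e i).map_target hz.1
  obtain ⟨S, hS⟩ := Function.ne_iff.1 (ep0_ne H hz.2 hi)
  have h3 := (ep0_hol ha i S).diffAt isOpen_univ hi (mem_univ _)
  have h4 : DifferentiableAt ℂ (fun w => prj r (V i ((A.e i).symm w)) S) z := by
    unfold prj
    split_ifs
    · simpa only [(A.e i).right_inv hz.1] using (hh i S).diffAt isOpen_univ hi (mem_univ _)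
    · exact differentiableAt_const _
  rw [(A.e i).right_inv hz.1] at h3
  refine ((h4.fun_mul (h3.fun_inv hS)).congr_of_eventuallyEq ?_).differentiableWithinAt
  filter_upwards [(isOpen_ti H.opn).mem_nhds hz, h3.continuousAt.eventually_ne hS] with w hw hw'
  rw [h2 i _ hw.2 ((A.e i).map_target hw.1), Pi.smul_apply, smul_eq_mul,
    mul_inv_cancel_right₀ hw']

/-! ### the mean value inequality -/

theorem eval_le [Countable A.ι] [MeasurableSpace M] [BorelSpace M] (vol : HM (KB A)⁻¹)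
    {R N : Set M} (hR : IsOpen R) (hx : x ∈ R) (hi : x ∈ (A.e i).source) (hN : N ∈ 𝓝 x)
    {en : M → ℝ} (hc : ContinuousAt en x) (h0 : 0 < en x) :
    ∃ C : ℝ, 0 ≤ C ∧ ∀ f : M → ℂ, HolAt A i R f → ∀ η : ℝ, 0 ≤ η →
      ∫⁻ y in N, ENNReal.ofReal (‖f y‖ ^ 2 * en y) ∂(vm vol) ≤ ENNReal.ofReal η →
      ‖f x‖ ^ 2 ≤ C * η := by
  have hm := half_pos h0
  obtain ⟨O, h1, hO, hxO⟩ := _root_.mem_nhds_iff.1 (inter_mem (inter_mem hN
    ((A.e i).open_source.mem_nhds hi)) (hc.eventually (lt_mem_nhds (half_lt_self h0))))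
  obtain ⟨W, hW, C, hC, H⟩ := geG_cz vol hi O (hO.mem_nhds hxO)
  have hD : IsOpen (Tz A i ∩ sz A i ⁻¹' R) :=
    (contOn_sz i).isOpen_inter_preimage (isOpen_Tz i) hR
  obtain ⟨s, hs, h2⟩ := Metric.nhds_basis_closedBall.mem_iff.1 (inter_mem hW (hD.mem_nhds
    ⟨cz_mem hi, by rw [mem_preimage, sz_cz hi]; exact hx⟩))
  set b := volume (closedBall (cz A i x) s) with hb
  have hb0 : b ≠ 0 := (measure_closedBall_pos _ _ hs).ne'
  have hb1 : b ≠ ⊤ := measure_closedBall_lt_top.ne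
  refine ⟨(b⁻¹ * C).toReal * (en x / 2)⁻¹, by positivity, fun f hf η hη hI => ?_⟩
  have h3 := Crest.Agent.R271.RExt747.submean (f := fun z => f (sz A i z)) hD
    (DifferentiableOn.comp (g := fun z => f ((A.e i).symm z)) (f := fun z => WithLp.toLp 2 z) hf
      (EuclideanSpace.equiv (Fin n) ℂ).symm.differentiable.differentiableOn fun z hz => hz)
    (h2.trans inter_subset_right)
  rw [sz_cz hi] at h3
  have h4 : ∫⁻ y in O, ‖f (sz A i (cz A i y))‖ₑ ^ 2 ∂(vm vol) ≤
      ENNReal.ofReal ((en x / 2)⁻¹ * η) := by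
    rw [ENNReal.ofReal_mul (inv_pos.2 hm).le]
    refine le_trans ?_ (mul_le_mul_right ((lintegral_mono_set fun y hy => (h1 hy).1.1).trans hI) _)
    rw [← lintegral_const_mul' _ _ ENNReal.ofReal_ne_top]
    refine lint_mono_on hO.measurableSet subset_rfl fun y hy => ?_
    rw [sz_cz (h1 hy).1.2, ← ofReal_norm, ← ENNReal.ofReal_pow (norm_nonneg _),
      ← ENNReal.ofReal_mul (inv_pos.2 hm).le]
    refine ENNReal.ofReal_le_ofReal ?_
    rw [le_inv_mul_iff₀ hm, mul_comm]
    exact mul_le_mul_of_nonneg_left (le_of_lt (h1 hy).2) (sq_nonneg _)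
  have h5 : ‖f x‖ₑ ^ 2 ≤ b⁻¹ * C * ENNReal.ofReal ((en x / 2)⁻¹ * η) := by
    rw [mul_assoc, ← ENNReal.mul_le_iff_le_inv hb0 hb1]
    exact h3.trans ((lintegral_mono_set (h2.trans inter_subset_left)).trans
      ((H fun z => ‖f (sz A i z)‖ₑ ^ 2).trans (mul_le_mul_right h4 _)))
  have h6 : b⁻¹ * C ≠ ⊤ := ENNReal.mul_ne_top (ENNReal.inv_ne_top.2 hb0) hC.ne
  rw [← ofReal_norm, ← ENNReal.ofReal_pow (norm_nonneg _), ← ENNReal.ofReal_toReal h6,
    ← ENNReal.ofReal_mul ENNReal.toReal_nonneg,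
    ENNReal.ofReal_le_ofReal_iff (by positivity)] at h5
  rwa [mul_assoc]

end

end Crest.Agent.X261.Sep93
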