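import Crest.Agent.X261.Sep93.A
import Crest.Agent.X261.Jet.HL

/-!
# Row 261, FIB/Sep (helper93), file `B`: the `L²` construction

`Dt.exists_sep` : on a complete Kaehler manifold, a holomorphic function on the regular set of
`a` separates a point of a proper tube from a point of the same fibre outside the tube.
-/

set_option autoImplicit false
set_option linter.unusedSectionVars false

open Set Filter Topology Complex Matrix MeasureTheory Metric
open scoped ContDiff Matrix ComplexConjugate ENNReal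

namespace Crest.Agent.X261.Sep93

open Crest.Agent.R275 Crest.Agent.R275.Geo Crest.Agent.R275.Core144
open Crest.Agent.R273.Defs_333 Crest.Agent.R273.HM_333 Crest.Agent.R273.Kah_333
open Crest.Agent.R273.Vm_333 Crest.Agent.R273.HessB_333
open Crest.Agent.R273.Fock_243 Crest.Agent.R273.DVec_733 Crest.Agent.R273.DMetB_733
open Crest.Agent.R273.NormC_505 (continuous_of_sm)
open Crest.Agent.R273.NV_578 (htriv cur_htriv)
open Crest.Agent.R273.BKNa_37 (IsV delV dbV)
open Crest.Agent.R273.BKNb_37 (inG)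
open Crest.Agent.R273.BKNc_37 (inG_isD)
open Crest.Agent.R273.HDN_505 (HB)
open Crest.Agent.T223.Hm (hq ix ix_mem gl gl_sm Cs Cut contOn_smAt)
open Crest.Agent.X261.Top (wdg dW HolV)
open Crest.Agent.X261.Jet.Tb Crest.Agent.X261.Jet.HL Crest.Agent.X261.Hs
open Crest.Agent.X261.Jet.Fr (rr tV rr_eq norm_rr norm_tV memLp_rr tV_add tV_smul gq_pos gq_nonneg
  contOn_V)
open Crest.Agent.X277.AN (gf gq)

noncomputable section

/-- the cut-off function of one variable -/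
def ct (ρ s : ℝ) : ℝ := Real.smoothTransition (2 - s / ρ)

theorem ct_cd (ρ : ℝ) : ContDiff ℝ ∞ (ct ρ) :=
  Real.smoothTransition.contDiff.comp (contDiff_const.sub (contDiff_id.div_const ρ))

theorem ct_one {ρ s : ℝ} (hρ : 0 < ρ) (h : s ≤ ρ) : ct ρ s = 1 :=
  Real.smoothTransition.one_of_one_le (by linarith [(div_le_one hρ).2 h])

theorem ct_zero {ρ s : ℝ} (hρ : 0 < ρ) (h : 2 * ρ ≤ s) : ct ρ s = 0 :=
  Real.smoothTransition.zero_of_nonpos (by linarith [(le_div_iff₀ hρ).2 h])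

theorem ct_der {ρ s : ℝ} (hρ : 0 < ρ) (h : s < ρ) : deriv (ct ρ) s = 0 := by
  have e : ct ρ =ᶠ[𝓝 s] fun _ => 1 := by
    filter_upwards [Iio_mem_nhds h] with u hu using ct_one hρ (le_of_lt hu)
  rw [e.deriv_eq, deriv_const]

variable {n q : ℕ} {M : Type} [TopologicalSpace M] {A : Atl n M} {a : M → Cn q} {i : A.ι}
  {x : M} {R T : Set M} {t : Cn q} {ρ : ℝ}

open Classical in
/-- the cut-off function -/
def cf (T : Set M) (a : M → Cn q) (t : Cn q) (ρ : ℝ) (x : M) : ℂ :=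
  if x ∈ T then (ct ρ (ps a t x) : ℂ) else 0

/-- a proper tube `T` in the regular set `R` -/
structure Dt (A : Atl n M) (a : M → Cn q) (R T : Set M) (t : Cn q) (ρ : ℝ) : Prop where
  hol : HolV A univ a
  sbm : Sbm A R a
  opn : IsOpen T
  sub : T ⊆ R
  pos : 0 < ρ
  cpt : IsCompact {x | x ∈ T ∧ ps a t x ≤ 2 * ρ}

theorem sm_kps (ha : HolV A univ a) (t : Cn q) (k : ℝ) : A.Sm fun x => k * ps a t x :=
  fun i => contDiffOn_const.mul (sm_ps ha t i)

/-- the metric `e^{-k |a - t|²}` -/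
def hk (ha : HolV A univ a) (t : Cn q) (k : ℝ) : HM ((KB A)⁻¹ * KB A) :=
  tw (htriv A) (fun x => k * ps a t x) (sm_kps ha t k)

theorem hk_w (ha : HolV A univ a) (t : Cn q) (k : ℝ) (i : A.ι) (x : M) :
    (hk ha t k).w i x = Real.exp (-(k * ps a t x)) := one_mul _

theorem Th_hk (K : Kah A) (ha : HolV A univ a) (t : Cn q) (k : ℝ) (hx : x ∈ (A.e i).source)
    (ξ : Fin n → ℂ) :
    Th K (hk ha t k) (fun _ => 0) (0 + 0) i x ξ = k * hq (hsf A (ps a t) i x) ξ := by
  have h1 : hsf A (fun _ => 0) i x = 0 := by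
    simpa [hsf] using
      hess_const_mul (u := fun _ : Cn n => (0 : ℝ)) (z := A.e i x) 0 contDiffAt_const
  have h2 : hsf A (fun x => k * ps a t x) i x = (k : ℂ) • hsf A (ps a t) i x :=
    hess_const_mul k (sm_contDiffAt (sm_ps ha t) i ((A.e i).map_source hx))
  rw [Th, hk, cur_tw _ _ i hx, cur_htriv i hx, zero_add, h1, h2, hq_smul]
  simp [hq]

theorem hq_nonneg (ha : HolV A univ a) (t : Cn q) (hx : x ∈ (A.e i).source) (ξ : Fin n → ℂ) :
    0 ≤ hq (hsf A (ps a t) i x) ξ := by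
  rw [hq_ps ha t hx]
  positivity

variable [T2Space M]

theorem Dt.ev_in (H : Dt A a R T t ρ) (hx : x ∈ T) :
    ∀ᶠ y in 𝓝 x, cf T a t ρ y = (ct ρ (ps a t y) : ℂ) := by
  filter_upwards [H.opn.mem_nhds hx] with y hy using if_pos hy

theorem Dt.ev_out (H : Dt A a R T t ρ) (hx : x ∉ {x | x ∈ T ∧ ps a t x ≤ 2 * ρ}) :
    ∀ᶠ y in 𝓝 x, cf T a t ρ y = 0 := by
  filter_upwards [H.cpt.isClosed.isOpen_compl.mem_nhds hx] with y hy
  unfold cf
  split_ifs with h
  · rw [ct_zero H.pos (not_le.1 fun h' => hy ⟨h, h'⟩).le, Complex.ofReal_zero]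
  · rfl

theorem Dt.sm_cf (H : Dt A a R T t ρ) : A.Sm (cf T a t ρ) := by
  intro i z hz
  have hi := (A.e i).map_target hz
  refine ContDiffAt.contDiffWithinAt ?_
  by_cases hx : (A.e i).symm z ∈ T
  · have h1 := ev_read hi (H.ev_in hx)
    rw [(A.e i).right_inv hz] at h1
    exact ((sm_compC (ct_cd ρ) (sm_ps H.hol t) i).contDiffAt
      ((A.e i).open_target.mem_nhds hz)).congr_of_eventuallyEq h1
  · have h1 := ev_read hi (H.ev_out fun h => hx h.1)
    rw [(A.e i).right_inv hz] at h1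
    exact contDiffAt_const.congr_of_eventuallyEq h1

variable [Countable A.ι] [MeasurableSpace M] [BorelSpace M]

/-- the data -/
def Dt.v0 (H : Dt A a R T t ρ) : MV (KB A) := mulV H.sm_cf (toMV (isV_ep0 H.hol))

theorem Dt.v0_apply (H : Dt A a R T t ρ) (hx : x ∈ (A.e i).source) :
    H.v0.1 i x = cf T a t ρ x • ep0 A a i x := by
  rw [Dt.v0, mulV_apply, toMV_apply _ hx]

theorem Dt.v0_out (H : Dt A a R T t ρ) (hx : x ∉ {x | x ∈ T ∧ ps a t x ≤ 2 * ρ}) (i : A.ι) :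
    ∀ᶠ y in 𝓝 x, H.v0.1 i y = 0 :=
  (H.ev_out hx).mono fun y hy => by rw [Dt.v0, mulV_apply, hy, zero_smul]

theorem Dt.v0_cs (H : Dt A a R T t ρ) : Cs H.v0.1 :=
  ⟨_, H.cpt, fun i _ hx => (H.v0_out hx i).self_of_nhds⟩

theorem Dt.dlt_v0 (H : Dt A a R T t ρ) (h : HM ((KB A)⁻¹ * KB A)) {k : ℝ}
    (hw : ∀ i y, h.w i y = Real.exp (-(k * ps a t y))) : dlt h H.v0 = 0 := by
  refine Subtype.ext (funext fun i => funext fun x => ?_)
  by_cases hi : x ∈ (A.e i).source
  swap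
  · exact (dlt h H.v0).2.2.1 i x hi
  rw [dlt_eq_delV h _ hi]
  by_cases hx : x ∈ T
  · refine delV_zero h H.sbm (H.sub hx) hi
      (Φ := fun s => ((Real.exp (-(k * ‖s - t‖ ^ 2)) * ct ρ (‖s - t‖ ^ 2) : ℝ) : ℂ)) ?_ ?_
    · have h1 : ContDiff ℝ ∞ fun s : Cn q => ‖s - t‖ ^ 2 := (contDiff_id.sub contDiff_const).norm_sq ℝ
      exact (Complex.ofRealCLM.contDiff.comp (((contDiff_const.mul h1).neg.exp).mul
        ((ct_cd ρ).comp h1))).differentiable (by simp) _
    · filter_upwards [H.ev_in hx, (A.e i).open_source.mem_nhds hi] with y h1 h2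
      rw [H.v0_apply h2, h1, hw, smul_smul, ps_eq, Complex.ofReal_mul]
  · exact delV_zero' h hi (H.v0_out (fun h => hx h.1) i)

theorem Dt.dbV_v0 (H : Dt A a R T t ρ) (hx : x ∈ T) (hi : x ∈ (A.e i).source) (k : Fin n) :
    dbV H.v0.1 i k x =
      ((deriv (ct ρ) (ps a t x) : ℝ) * conj (gf A (ps a t) i x k) : ℂ) • ep0 A a i x := by
  have h1 : dbV (toMV (isV_ep0 H.hol)).1 i k x = 0 := by
    rw [dbV_congr (w := ep0 A a) hi (mem_of_superset ((A.e i).open_source.mem_nhds hi)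
      fun y hy => toMV_apply _ hy)]
    exact funext fun S => (ep0_hol H.hol i S).db_zero isOpen_univ hi (mem_univ _) k
  rw [dbV_congr (w := (mulV (sm_compC (ct_cd ρ) (sm_ps H.hol t)) (toMV (isV_ep0 H.hol))).1) hi
    ((H.ev_in hx).mono fun y hy => by rw [Dt.v0, mulV_apply, mulV_apply, hy]),
    dbV_mulV (ct_cd ρ) (sm_ps H.hol t) _ hi, h1, smul_zero, add_zero, toMV_apply _ hi]

variable (K : Kah A) (vol : HM (KB A)⁻¹)

/-- the squared length of `ep0` -/
def en (a : M → Cn q) (x : M) : ℝ := ‖rr (htriv A) vol K (ep0 A a) x‖ ^ 2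

theorem en_cont (ha : HolV A univ a) : Continuous (en K vol a) := by
  have h := Complex.continuous_re.comp (continuous_of_sm (gl_sm (vol := vol)
    (inG_isD (K := K) (htriv A) (isV_ep0 ha) (isV_ep0 ha))))
  exact h.congr fun x => (norm_rr _ _ _ _ x).symm

theorem en_eq (ha : HolV A univ a) (hx : x ∈ (A.e i).source) :
    en K vol a x = (vol.w i x)⁻¹ * (Jet.Fr.gq K i x (ep0 A a i x) (ep0 A a i x)).re := by
  rw [en, rr_eq _ _ _ (isV_ep0 ha) hx, norm_tV _ _ _ hx]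
  exact congrArg _ (one_mul _)

theorem ws_hk (ha : HolV A univ a) (t : Cn q) {k : ℝ} (h0 : 0 ≤ k) :
    WS K (hk ha t k) vol (fun _ _ _ => 0) (fun _ _ _ => 0) (fun _ => 0) 0 where
  sm _ _ _ := contDiffOn_const
  anti _ _ := antitone_const
  le _ _ := le_rfl
  lm _ _ := measurable_const
  l0 _ _ _ := le_rfl
  lb _ := ⟨0, fun _ _ => le_rfl⟩
  lim _ := Eventually.of_forall fun _ => tendsto_const_nhds
  e0 _ := le_rfl
  elim := tendsto_const_nhds
  pos _ _ _ _ hx ξ := by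
    rw [Th_hk K ha t k hx]
    exact mul_nonneg h0 (hq_nonneg ha t hx ξ)

/-- the majorant of `|∂̄ v₀|²` -/
def k0 (T : Set M) (a : M → Cn q) (t : Cn q) (ρ : ℝ) : M → ℝ :=
  {x | x ∈ T ∧ ps a t x ≤ 2 * ρ}.indicator fun x =>
    deriv (ct ρ) (ps a t x) ^ 2 * ps a t x * en K vol a x

theorem k0_nonneg (x : M) : 0 ≤ k0 K vol T a t ρ x :=
  indicator_nonneg (fun y _ => mul_nonneg (mul_nonneg (sq_nonneg _) (ps_nonneg t y))
    (sq_nonneg _)) x

theorem Dt.int_k0 (H : Dt A a R T t ρ) : Integrable (k0 K vol T a t ρ) (vm vol) := by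
  have := isLocallyFinite_vm vol
  have h1 := continuous_of_sm (sm_ps H.hol t)
  refine (integrable_indicator_iff H.cpt.measurableSet).2
    (Continuous.continuousOn ?_ |>.integrableOn_compact H.cpt)
  exact (((((ct_cd ρ).continuous_deriv (by simp)).comp h1).pow 2).mul h1).mul (en_cont K vol H.hol)

theorem Dt.ds (H : Dt A a R T t ρ) {k : ℝ} (h0 : 0 < k) :
    DS K (hk H.hol t k) vol (fun _ _ _ => 0) (fun _ _ _ => 0) (fun _ => 0)
      (Real.exp (-(k * ρ)) / k * ∫ x, k0 K vol T a t ρ x ∂(vm vol))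
      (fun _ _ x => Real.exp (-(k * ρ)) / k * k0 K vol T a t ρ x) fun _ _ => H.v0 := by
  have hc : 0 ≤ Real.exp (-(k * ρ)) / k := by positivity
  refine ⟨fun _ _ => H.v0_cs, fun _ _ => ((H.int_k0 K vol).const_mul _).1.aemeasurable,
    fun _ _ x => mul_nonneg hc (k0_nonneg K vol x), fun _ _ => ?_,
    fun _ _ => Eventually.of_forall fun x => ?_⟩
  · rw [← integral_const_mul]
    exact (ofReal_integral_eq_lintegral_ofReal ((H.int_k0 K vol).const_mul _)
      (Eventually.of_forall fun x => mul_nonneg hc (k0_nonneg K vol x))).ge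
  have hi := ix_mem (A := A) x
  set i := ix A x
  have hv := vol.pos i x hi
  refine ⟨i, hi, ?_⟩
  simp only [Th_hk K H.hol t k hi]
  by_cases hx : x ∈ {x | x ∈ T ∧ ps a t x ≤ 2 * ρ}
  swap
  · refine ⟨0, 0, fun l => by rw [dbV_zero hi (H.v0_out hx i), smul_zero], fun ξ => ?_⟩
    rw [dotProduct_zero (v := star ξ), norm_zero, zero_pow two_ne_zero, mul_zero]
    exact mul_nonneg (mul_nonneg (mul_nonneg hc (k0_nonneg K vol x)) hv.le)
      (mul_nonneg h0.le (hq_nonneg H.hol t hi ξ))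
  refine ⟨_, _, H.dbV_v0 hx.1 hi, fun ξ => ?_⟩
  have h1 : ‖star ξ ⬝ᵥ fun l => ((deriv (ct ρ) (ps a t x) : ℝ) * conj (gf A (ps a t) i x l) : ℂ)‖ ^ 2
      = deriv (ct ρ) (ps a t x) ^ 2 * gq A (ps a t) i x ξ := by
    have h2 : (star ξ ⬝ᵥ fun l => ((deriv (ct ρ) (ps a t x) : ℝ) * conj (gf A (ps a t) i x l) : ℂ))
        = (deriv (ct ρ) (ps a t x) : ℝ) * conj (∑ l, gf A (ps a t) i x l * ξ l) := by
      simp only [dotProduct, map_sum, map_mul, Finset.mul_sum, Pi.star_apply, Complex.star_def]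
      exact Finset.sum_congr rfl fun _ _ => by ring
    rw [h2, norm_mul, mul_pow, Complex.norm_real, Real.norm_eq_abs, sq_abs, Complex.norm_conj, gq]
  have h2 : (star (ep0 A a i x) ⬝ᵥ (GK K i x *ᵥ ep0 A a i x)).re = vol.w i x * en K vol a x := by
    rw [en_eq K vol H.hol hi, ← mul_assoc, mul_inv_cancel₀ hv.ne', one_mul]
    rfl
  rw [h1, h2, hk_w, k0, indicator_of_mem hx, neg_zero, Real.exp_zero, mul_one]
  rcases lt_or_ge (ps a t x) ρ with h3 | h3
  · simp [ct_der H.pos h3]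
  have h4 : Real.exp (-(k * ps a t x)) ≤ Real.exp (-(k * ρ)) :=
    Real.exp_le_exp.2 (neg_le_neg (mul_le_mul_of_nonneg_left h3 h0.le))
  have h5 : 0 ≤ en K vol a x := sq_nonneg _
  calc _ ≤ Real.exp (-(k * ρ)) * (vol.w i x * en K vol a x) *
        (deriv (ct ρ) (ps a t x) ^ 2 * (ps a t x * hq (hsf A (ps a t) i x) ξ)) :=
      mul_le_mul (mul_le_mul_of_nonneg_right h4 (by positivity))
        (mul_le_mul_of_nonneg_left (gq_le H.hol t hi ξ) (sq_nonneg _))
        (mul_nonneg (sq_nonneg _) (sq_nonneg _)) (by positivity)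
    _ = _ := by field_simp

theorem exists_cpt (hi : x ∈ (A.e i).source) :
    ∃ C : Set M, IsCompact C ∧ C ⊆ (A.e i).source ∧ C ∈ 𝓝 x := by
  obtain ⟨C, h1, h2, h3⟩ := exists_compact_subset (A.e i).open_target ((A.e i).map_source hi)
  refine ⟨(A.e i).symm '' C, h1.image_of_continuousOn ((A.e i).continuousOn_symm.mono h3), ?_, ?_⟩
  · rintro _ ⟨z, hz, rfl⟩
    exact (A.e i).map_target (h3 hz)
  · filter_upwards [(A.e i).open_source.mem_nhds hi, ((A.e i).continuousAt hi).preimage_mem_nhds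
      (mem_interior_iff_mem_nhds.1 h2)] with y hy hy' using ⟨_, hy', (A.e i).left_inv hy⟩

/-- the holomorphic polyvector -/
theorem Dt.exists_V (H : Dt A a R T t ρ) (P : Part A) (hcut : Cut K) {k : ℝ} (h1 : 1 ≤ k) :
    ∃ V : A.ι → M → FI n → ℂ, IsV (KB A) V ∧ (∀ i S, HolAt A i univ fun y => V i y S) ∧
      (∀ i, ∀ x ∈ (A.e i).source, ∀ l, iW (dp A i a x l) *ᵥ V i x = 0) ∧
      MemLp (rr (hk H.hol t k) vol K V) 2 (vm vol) ∧
      ∫ x, ‖rr (hk H.hol t k) vol K V x - rr (hk H.hol t k) vol K H.v0.1 x‖ ^ 2 ∂(vm vol) ≤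
        Real.exp (-(k * ρ)) / k * ∫ x, k0 K vol T a t ρ x ∂(vm vol) := by
  have h0 : 0 < k := one_pos.trans_le h1
  set D := Real.exp (-(k * ρ)) / k * ∫ x, k0 K vol T a t ρ x ∂(vm vol) with hD
  have hD0 : 0 ≤ D := mul_nonneg (by positivity) (integral_nonneg (k0_nonneg K vol))
  have W := ws_hk K vol H.hol t h0.le
  set h := hk H.hol t k with hh
  obtain ⟨Λ, Y, l0, l1, l2⟩ := hs_hahn W (H.ds K vol h0) P hcut hD0 (ρ := fun _ => 1)
    measurable_const (fun _ => zero_le_one) (fun _ _ => ⟨1, fun _ _ => le_rfl⟩)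
    (Eventually.of_forall fun x δ hδ => Eventually.of_forall fun _ => ⟨0, by simp [hδ.le]⟩)
    H.v0_cs (c := fun _ _ _ => 1) (c0 := fun _ => 1) (fun _ _ _ _ _ => (one_smul _ _).symm)
    (fun _ _ => aestronglyMeasurable_const) (fun _ _ _ => norm_one.le) aestronglyMeasurable_const
    (fun _ => norm_one.le) fun _ => Eventually.of_forall fun _ => tendsto_const_nhds
  have e1 : ∀ w : MV (KB A), nW K h vol (fun _ => 0) w.1 =
      ∫ x, 1 * (gl vol (inG K h w.1 w.1) x).re ∂(vm vol) := fun w => by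
    simp only [nW, Real.exp_zero]
  set J := ∫ x, 1 * pq vol (HB K h) (lowC K H.v0 H.v0_cs).1 x ∂(vm vol) with hJ
  have hJ0 : 0 ≤ J := integral_nonneg fun x => mul_nonneg zero_le_one (pq_nonneg vol _ _ x)
  have hB : 0 ≤ 2 * J + 2 * D := by positivity
  obtain ⟨V, O⟩ := hl n M A P K hcut (KB A) h vol _ _ _ _ W Λ l0 (Real.sqrt (2 * J + 2 * D))
    (Real.sqrt_nonneg _) (fun _ _ w hw => by
      have h2 := lamC_le vol (HB K h) (c := fun _ => 1) aestronglyMeasurable_const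
        (fun _ => norm_one.le) (lowC K H.v0 H.v0_cs) (lowC K w hw) (a := fun _ => 1)
        (ρ := fun _ => 1) (fun _ => zero_le_one) ((integrable_pq1 vol _ _).const_mul 1)
        (fun _ => zero_le_one) ((integrable_pq1 vol _ _).const_mul 1)
        (Eventually.of_forall fun _ => by simp)
      rw [lamC_low] at h2
      simp only [pq_low K h w hw] at h2
      rw [l1, Real.sq_sqrt hB, e1, sub_eq_add_neg]
      refine (sq_add_le h2 ((congrArg (· ^ 2) (norm_neg _)).trans_le (l2 w hw))).trans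
        (le_of_eq ?_)
      rw [← hJ, ← hD]
      ring) univ (fun _ _ => univ) MeasurableSet.univ (fun _ _ => MeasurableSet.univ)
    fun _ => by simp
  refine ⟨V, O.isV, O.hol, fun i x hi l => ?_, O.mem, ?_⟩
  · obtain ⟨C, c1, c2, c3⟩ := exists_cpt hi
    have hb : ContinuousOn (fun y => dp A i a y l) (A.e i).source :=
      continuousOn_pi.2 fun c => contOn_smAt (smAt_of_hol (dp_hol H.hol i l c))
    have h2 := O.null i C c1 c2 (fun y => dp A i a y l) (hb.mono c2) fun _ _ y hy ξ => by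
      rw [hh, Th_hk K H.hol t k (c2 hy.2), hq_ps H.hol t (c2 hy.2)]
      refine le_trans (Finset.single_le_sum (f := fun l => ‖∑ c, dp A i a y l c * ξ c‖ ^ 2)
        (fun _ _ => sq_nonneg _) (Finset.mem_univ l)) (le_mul_of_one_le_left (by positivity) h1)
    have := isOpenPos_vm vol
    have h3 : ContinuousOn (fun y => iW (dp A i a y l) *ᵥ V i y) (A.e i).source := by
      simp only [iW_eq_sum (dp A i a _ l), Matrix.sum_mulVec, Matrix.smul_mulVec]
      exact continuousOn_finsetSum _ fun c _ => (continuousOn_pi.1 hb c).smul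
        ((continuous_const.matrix_mulVec continuous_id).comp_continuousOn (contOn_V O.isV i))
    refine Measure.eqOn_open_of_ae_eq (μ := vm vol) (g := fun _ => 0) (U := interior C) ?_
      isOpen_interior (h3.mono (interior_subset.trans c2)) continuousOn_const
      (mem_interior_iff_mem_nhds.2 c3)
    filter_upwards [ae_restrict_of_ae h2, ae_restrict_mem isOpen_interior.measurableSet]
      with y h4 h5 using h4 ⟨mem_univ _, interior_subset h5⟩
  · have h2 := O.dist H.v0 H.v0_cs (fun _ _ => H.dlt_v0 _ (k := k) fun i y => by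
      change h.w i y * Real.exp (-0) = _
      rw [neg_zero, Real.exp_zero, mul_one, hh, hk_w]) (Real.sqrt D) (Real.sqrt_nonneg _)
      fun _ _ w hw => by
        rw [l1, Real.sq_sqrt hD0, e1, pr]
        simp only [map_one, one_mul, sub_sub_cancel_left, norm_neg]
        simpa only [one_mul] using l2 w hw
    rwa [Real.sq_sqrt hD0, Real.exp_zero, mul_one] at h2

/-- the holomorphic function -/
theorem Dt.exists_h (H : Dt A a R T t ρ) (P : Part A) (hcut : Cut K) {r : ℕ} (hr : q + r = n)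
    {k : ℝ} (h1 : 1 ≤ k) : ∃ h : M → ℂ, (∀ i, HolAt A i R h) ∧
      ∫⁻ x in R ∩ {x | ps a t x < ρ}, ENNReal.ofReal (‖h x - cf T a t ρ x‖ ^ 2 * en K vol a x)
        ∂(vm vol) ≤ ENNReal.ofReal ((∫ x, k0 K vol T a t ρ x ∂(vm vol)) / k) := by
  have h0 : 0 < k := one_pos.trans_le h1
  obtain ⟨V, v1, v2, v3, v4, v5⟩ := H.exists_V K vol P hcut h1
  obtain ⟨h, h2, h3⟩ := exists_ratio H.hol H.sbm v1 v2 hr fun i x _ hi => v3 i x hi
  refine ⟨h, h2, ?_⟩
  have hI : Integrable (fun x => ‖rr (hk H.hol t k) vol K V x -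
      rr (hk H.hol t k) vol K H.v0.1 x‖ ^ 2) (vm vol) :=
    (v4.sub (memLp_rr _ vol K (isV H.v0) H.v0_cs)).integrable_norm_pow two_ne_zero
  have h4 := mul_le_mul_of_nonneg_left v5 (Real.exp_pos (k * ρ)).le
  rw [← integral_const_mul, ← mul_assoc, ← mul_div_assoc, ← Real.exp_add, add_neg_cancel,
    Real.exp_zero, one_div, inv_mul_eq_div] at h4
  refine le_trans ?_ (ENNReal.ofReal_le_ofReal h4)
  rw [ofReal_integral_eq_lintegral_ofReal (hI.const_mul _)
    (Eventually.of_forall fun x => by positivity)]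
  refine le_trans (lint_mono_on (H.sbm.opn.inter (isOpen_lt (continuous_of_sm (sm_ps H.hol t))
    continuous_const)).measurableSet subset_rfl fun x hx => ENNReal.ofReal_le_ofReal ?_)
    (setLIntegral_le_lintegral _ _)
  obtain ⟨i, hi⟩ := A.cover x
  have e1 : rr (hk H.hol t k) vol K V x - rr (hk H.hol t k) vol K H.v0.1 x =
      tV (hk H.hol t k) vol K i x (V i x - H.v0.1 i x) := by
    rw [rr_eq _ _ _ v1 hi, rr_eq _ _ _ (isV H.v0) hi, sub_eq_iff_eq_add, ← tV_add, sub_add_cancel]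
  have e2 : prj r (V i x - H.v0.1 i x) = (h x - cf T a t ρ x) • ep0 A a i x := by
    rw [prj_sub, h3 i x hx.1 hi, H.v0_apply hi, prj_smul,
      Dg.prj_eq (τ := ep0 A a i x) (dg_dW.Sbi hr), sub_smul]
  have e3 : ‖h x - cf T a t ρ x‖ ^ 2 * (Jet.Fr.gq K i x (ep0 A a i x) (ep0 A a i x)).re ≤
      (Jet.Fr.gq K i x (V i x - H.v0.1 i x) (V i x - H.v0.1 i x)).re := by
    have h5 := gq_nonneg K hi ((V i x - H.v0.1 i x) - prj r (V i x - H.v0.1 i x))
    unfold Jet.Fr.gq at h5 ⊢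
    rw [pair_split (p := r) _ (V i x - H.v0.1 i x), Complex.add_re]
    refine le_add_of_le_of_nonneg (le_of_eq ?_) h5
    rw [e2, star_smul, Matrix.mulVec_smul, smul_dotProduct, dotProduct_smul, smul_smul,
      Complex.star_def, Complex.conj_mul', smul_eq_mul, ← Complex.ofReal_pow,
      Complex.re_ofReal_mul]
  have e4 : 1 ≤ Real.exp (k * ρ) * Real.exp (-(k * ps a t x)) := by
    rw [← Real.exp_add]
    exact Real.one_le_exp (by nlinarith [show ps a t x < ρ from hx.2])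
  have hv := (inv_pos.2 (vol.pos i x hi)).le
  rw [e1, norm_tV _ _ _ hi, hk_w, en_eq K vol H.hol hi, mul_left_comm,
    mul_left_comm (Real.exp _), ← mul_assoc (Real.exp _)]
  exact mul_le_mul_of_nonneg_left (e3.trans (le_mul_of_one_le_left (gq_nonneg K hi _) e4)) hv

omit [MeasurableSpace M] [BorelSpace M] in
/-- **separation** -/
theorem Dt.exists_sep (H : Dt A a R T t ρ) (P : Part A) (hcut : Cut K) {x₁ x₂ : M} (h1 : x₁ ∈ T)
    (h2 : x₂ ∈ R) (h2' : x₂ ∉ T) (e1 : a x₁ = t) (e2 : a x₂ = t) :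
    ∃ h : M → ℂ, (∀ i, HolAt A i R h) ∧ h x₁ ≠ h x₂ := by
  borelize M
  let vol := Crest.Agent.R273.Vol_333.volK K
  have hc := continuous_of_sm (sm_ps H.hol t)
  set I := ∫ x, k0 K vol T a t ρ x ∂(vm vol) with hI
  have hI0 : 0 ≤ I := integral_nonneg (k0_nonneg K vol)
  have key : ∀ x ∈ R, a x = t → ∀ c : ℂ, (∀ᶠ y in 𝓝 x, ps a t y < ρ → cf T a t ρ y = c) →
      ∃ C : ℝ, 0 ≤ C ∧ ∀ h : M → ℂ, (∀ i, HolAt A i R h) → ∀ η : ℝ, 0 ≤ η →
        ∫⁻ x in R ∩ {x | ps a t x < ρ}, ENNReal.ofReal (‖h x - cf T a t ρ x‖ ^ 2 * en K vol a x)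
          ∂(vm vol) ≤ ENNReal.ofReal η → ‖h x - c‖ ^ 2 ≤ C * η := by
    intro x hx e c hc'
    obtain ⟨i, hi⟩ := A.cover x
    have h3 : ∀ᶠ y in 𝓝 x, ps a t y < ρ := hc.continuousAt.eventually (gt_mem_nhds (by
      rw [ps_eq, e, sub_self, norm_zero, zero_pow two_ne_zero]; exact H.pos))
    obtain ⟨O, h4, hO, hxO⟩ := eventually_nhds_iff.1 ((hc'.and h3).and (H.sbm.opn.mem_nhds hx))
    obtain ⟨C, hC, h5⟩ := eval_le vol H.sbm.opn hx hi (hO.mem_nhds hxO)
      (en_cont K vol H.hol).continuousAt (by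
        rw [en_eq K vol H.hol hi]
        exact mul_pos (inv_pos.2 (vol.pos i x hi)) (gq_pos K hi (ep0_ne H.sbm hx hi)))
    refine ⟨C, hC, fun h hh η hη h6 => h5 (fun y => h y - c) ((hh i).sub_const c) η hη
      (le_trans ?_ h6)⟩
    refine le_trans (lint_mono_on hO.measurableSet subset_rfl fun y hy => le_of_eq ?_)
      (lintegral_mono_set fun y hy => ⟨(h4 y hy).2, (h4 y hy).1.2⟩)
    rw [(h4 y hy).1.1 (h4 y hy).1.2]
  obtain ⟨C₁, c1, k1⟩ := key x₁ (H.sub h1) e1 1 ((H.ev_in h1).mono fun y hy h => by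
    rw [hy, ct_one H.pos h.le, Complex.ofReal_one])
  obtain ⟨C₂, c2, k2⟩ := key x₂ h2 e2 0 ((H.ev_out fun h => h2' h.1).mono fun y hy _ => hy)
  set k := 4 * (C₁ + C₂) * I + 1 with hk
  have hk1 : 1 ≤ k := le_add_of_nonneg_left (by positivity)
  have hk0 : 0 < k := one_pos.trans_le hk1
  obtain ⟨h, h3, h4⟩ := H.exists_h K vol P hcut
    (Nat.add_sub_cancel' (H.sbm.le_dim h2)) hk1
  refine ⟨h, h3, fun e => ?_⟩
  have h5 := k1 h h3 _ (div_nonneg hI0 hk0.le) h4
  have h6 := k2 h h3 _ (div_nonneg hI0 hk0.le) h4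
  rw [e] at h5
  rw [sub_zero] at h6
  have h7 : (C₁ + C₂) * (I / k) < 1 / 4 := by
    rw [← mul_div_assoc, div_lt_iff₀ hk0]
    linarith
  have h8 := norm_sub_le (h x₂) (h x₂ - 1)
  rw [sub_sub_cancel, norm_one] at h8
  nlinarith [sq_nonneg (‖h x₂‖ - ‖h x₂ - 1‖), norm_nonneg (h x₂), norm_nonneg (h x₂ - 1)]

end

end Crest.Agent.X261.Sep93
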