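import Crest.Agent.X261.Sep93.B
import Crest.Agent.X261.Fib.Ind
import Crest.Agent.X261.Cov.E
import Crest.Agent.X261.Gauss.EtaA

/-!
# Row 261, FIB/Sep (helper93), file `Main`: separation of the components of a general fibre

`sepH : Fib.Mn.SepH D H`.
-/

set_option autoImplicit false
set_option linter.unusedSectionVars false

open Set Filter Topology Metric

namespace Crest.Agent.X261.Sep93

open Crest.Agent.R275.Geo Crest.Agent.R275.Core144 Crest.Agent.R273.UCov_914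
open Crest.Agent.R273.Kah_333 (Kah)
open Crest.Agent.R273.RMan4_798 (pullKah)
open Crest.Agent.R273.NormC_505 (continuous_of_sm)
open Crest.Agent.R281.ThnM_280 (Crit surj_of_not_crit)
open Crest.Agent.X261.Top (HolV)
open Crest.Agent.X261.Jet.Tb Crest.Agent.X261.Cov.A Crest.Agent.X261.Fib

noncomputable section

/-! ### topology -/

section top

variable {G M Y : Type*} [Group G] [TopologicalSpace M] [MulAction G M] [ContinuousConstSMul G M]
  {a : M → Y} {t : Y}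

theorem smul_cc {g : G} (hg : ∀ y, a (g • y) = a y) {x y : M}
    (h : y ∈ connectedComponentIn (a ⁻¹' {t}) x) :
    g • y ∈ connectedComponentIn (a ⁻¹' {t}) (g • x) := by
  refine (isPreconnected_connectedComponentIn.image (g • ·)
    (continuous_const_smul g).continuousOn).subset_connectedComponentIn
    ⟨x, mem_connectedComponentIn (connectedComponentIn_nonempty_iff.1 ⟨y, h⟩), rfl⟩ ?_ ⟨y, h, rfl⟩
  rintro _ ⟨z, hz, rfl⟩
  rw [mem_preimage, hg]
  exact connectedComponentIn_subset (a ⁻¹' {t}) _ hz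

theorem inv_inv' {g : G} (hg : ∀ y, a (g • y) = a y) (y : M) : a (g⁻¹ • y) = a y := by
  rw [← hg, smul_inv_smul]

variable (G) in
/-- the stabiliser of the component of `x` in the fibre -/
def stab (a : M → Y) (x : M) : Subgroup G where
  carrier := {g | (∀ y, a (g • y) = a y) ∧ g • x ∈ connectedComponentIn (a ⁻¹' {a x}) x}
  one_mem' := ⟨fun y => by rw [one_smul], by rw [one_smul]; exact mem_connectedComponentIn rfl⟩
  mul_mem' ha hb := ⟨fun y => by rw [mul_smul, ha.1, hb.1], by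
    rw [mul_smul, connectedComponentIn_eq ha.2]
    exact smul_cc ha.1 hb.2⟩
  inv_mem' {g} ha := ⟨inv_inv' ha.1, by
    have h := smul_cc (inv_inv' ha.1) ha.2
    rw [inv_smul_smul] at h
    rw [← connectedComponentIn_eq h]
    exact mem_connectedComponentIn (inv_inv' ha.1 x)⟩

theorem stab_smul {x y : M} {g : G} (hg : g ∈ stab G a x)
    (hy : y ∈ connectedComponentIn (a ⁻¹' {a x}) x) :
    g • y ∈ connectedComponentIn (a ⁻¹' {a x}) x := by
  rw [connectedComponentIn_eq hg.2]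
  exact smul_cc hg.1 hy

/-- the stabiliser acts cocompactly on the component -/
theorem stab_cocpt {x : M} (hF : IsClosed (a ⁻¹' {a x}))
    (lc : ∀ y ∈ a ⁻¹' {a x}, connectedComponentIn (a ⁻¹' {a x}) y ∈ 𝓝[a ⁻¹' {a x}] y)
    {C : Set M} (hC : IsCompact C)
    (h : ∀ y ∈ a ⁻¹' {a x}, ∃ g : G, (∀ z, a (g • z) = a z) ∧ g • y ∈ C) :
    ∃ K : Set M, IsCompact K ∧ ∀ y ∈ connectedComponentIn (a ⁻¹' {a x}) x,
      ∃ g ∈ stab G a x, g • y ∈ K := by
  classical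
  obtain ⟨s, -, hs⟩ := (hC.inter_right hF).elim_nhdsWithin_subcover
    (fun y => connectedComponentIn (a ⁻¹' {a x}) y)
    fun y hy => nhdsWithin_mono _ inter_subset_right (lc y hy.2)
  have h1 : ∀ y : M, ∃ k : G, (∃ g : G, (∀ z, a (g • z) = a z) ∧
      g • x ∈ connectedComponentIn (a ⁻¹' {a x}) y) → (∀ z, a (k • z) = a z) ∧
      k • x ∈ connectedComponentIn (a ⁻¹' {a x}) y := fun y => by
    by_cases h2 : ∃ g : G, (∀ z, a (g • z) = a z) ∧ g • x ∈ connectedComponentIn (a ⁻¹' {a x}) y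
    · exact ⟨h2.choose, fun _ => h2.choose_spec⟩
    · exact ⟨1, fun h3 => absurd h3 h2⟩
  choose k hk using h1
  refine ⟨⋃ y ∈ s, (fun z => (k y)⁻¹ • z) '' C,
    s.isCompact_biUnion fun y _ => hC.image (continuous_const_smul _), fun y hy => ?_⟩
  obtain ⟨g, hg, hgC⟩ := h y (connectedComponentIn_subset _ _ hy)
  obtain ⟨u, hu, h2⟩ := mem_iUnion₂.1 (hs ⟨hgC, by
    rw [mem_preimage, hg]; exact connectedComponentIn_subset (a ⁻¹' {a x}) _ hy⟩)
  have h3 : g • x ∈ connectedComponentIn (a ⁻¹' {a x}) u := by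
    rw [connectedComponentIn_eq h2, ← connectedComponentIn_eq (smul_cc hg hy)]
    exact mem_connectedComponentIn (hg x)
  obtain ⟨h4, h5⟩ := hk u ⟨g, hg, h3⟩
  refine ⟨(k u)⁻¹ * g, ⟨fun z => by rw [mul_smul, inv_inv' h4, hg], ?_⟩,
    mem_iUnion₂.2 ⟨u, hu, _, hgC, (mul_smul _ _ _).symm⟩⟩
  rw [connectedComponentIn_eq h5] at h3
  have h6 := smul_cc (inv_inv' h4) h3
  rwa [inv_smul_smul, ← mul_smul] at h6

theorem closed_cc {F : Set M} (hF : IsClosed F) {x : M} (hx : x ∈ F) :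
    IsClosed (connectedComponentIn F x) :=
  isClosed_of_closure_subset (isPreconnected_connectedComponentIn.closure.subset_connectedComponentIn
    (subset_closure (mem_connectedComponentIn hx))
    (closure_minimal (connectedComponentIn_subset _ _) hF))

theorem closed_diff {F : Set M} (hF : IsClosed F)
    (lc : ∀ y ∈ F, connectedComponentIn F y ∈ 𝓝[F] y) (x : M) :
    IsClosed (F \ connectedComponentIn F x) := by
  refine isClosed_of_closure_subset fun y hy => ?_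
  have h1 : y ∈ F := closure_minimal sdiff_subset hF hy
  refine ⟨h1, fun h2 => ?_⟩
  obtain ⟨z, h3, h4⟩ := ((mem_closure_iff_frequently.1 hy).and_eventually
    (eventually_nhdsWithin_iff.1 (lc y h1))).exists
  exact h3.2 (connectedComponentIn_eq h2 ▸ h4 h3.1)

theorem closed_image {N : Type*} [TopologicalSpace N] {p : M → N} (ho : IsOpenMap p)
    (hs : Function.Surjective p) {Z : Set M} (hZ : IsClosed Z)
    (h : ∀ x y, p x = p y → x ∈ Z → y ∈ Z) : IsClosed (p '' Z) := by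
  have : (p '' Z)ᶜ = p '' Zᶜ := by
    ext y
    obtain ⟨x, rfl⟩ := hs y
    exact ⟨fun h1 => ⟨x, fun h2 => h1 ⟨x, h2, rfl⟩, rfl⟩,
      fun ⟨z, h1, h2⟩ ⟨w, h3, h4⟩ => h1 (h w z (h4.trans h2.symm) h3)⟩
  rw [← isOpen_compl_iff, this]
  exact ho _ hZ.isOpen_compl

/-- a compact open part of the zero set has a proper tube -/
theorem exists_tube {N : Type*} [TopologicalSpace N] [T2Space N] [LocallyCompactSpace N]
    {ψ : N → ℝ} (hψ : Continuous ψ) {Z Z' R : Set N} (hZ : IsCompact Z) (hZ' : IsClosed Z')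
    (hd : Z ⊆ Z'ᶜ) (hR : IsOpen R) (hZR : Z ⊆ R) (h0 : ∀ y, ψ y ≤ 0 → y ∈ Z ∪ Z') :
    ∃ (T : Set N) (ρ : ℝ), IsOpen T ∧ T ⊆ R ∧ Z ⊆ T ∧ T ⊆ Z'ᶜ ∧ 0 < ρ ∧
      IsCompact {y | y ∈ T ∧ ψ y ≤ 2 * ρ} := by
  obtain ⟨W, h1, h2, h3⟩ := exists_compact_between hZ (hR.inter hZ'.isOpen_compl)
    (subset_inter hZR hd)
  obtain ⟨m, hm, h4⟩ := (h1.diff isOpen_interior (t := interior W)).exists_forall_le'
    hψ.continuousOn (a := 0) fun y hy => lt_of_not_ge fun h5 =>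
      (h0 y h5).elim (fun h6 => hy.2 (h2 h6)) fun h6 => (h3 hy.1).2 h6
  refine ⟨interior W, m / 4, isOpen_interior, fun y hy => (h3 (interior_subset hy)).1, h2,
    fun y hy => (h3 (interior_subset hy)).2, by positivity, ?_⟩
  convert h1.inter_right (isClosed_le hψ (continuous_const (y := 2 * (m / 4)))) using 1
  refine subset_antisymm (fun y hy => ⟨interior_subset hy.1, hy.2⟩) fun y hy => ⟨?_, hy.2⟩
  by_contra h5
  have h6 : ψ y ≤ 2 * (m / 4) := hy.2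
  linarith [h4 y ⟨hy.1, h5⟩]

end top

/-! ### propagation of the factorisation -/

section fac

variable {n q : ℕ} {M : Type} [TopologicalSpace M] {A : Atl n M} {a : M → Cn q} {U : Set M}
  {f : M → ℂ}

/-- `f` is a holomorphic function of `a` near `x` -/
def Fc (a : M → Cn q) (f : M → ℂ) (x : M) : Prop :=
  ∃ Φ : Cn q → ℂ, AnalyticAt ℂ Φ (a x) ∧ ∀ᶠ z in 𝓝 x, f z = Φ (a z)

theorem fc_loc (H : Sbm A U a) (hf : ∀ i, HolAt A i U f) {x : M} (hx : x ∈ U) :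
    ∀ᶠ y in 𝓝 x, (Fc a f x ↔ Fc a f y) := by
  by_cases h : Fc a f x
  · obtain ⟨Φ, h1, h2⟩ := h
    filter_upwards [(H.contAt hx).eventually h1.eventually_analyticAt, h2.eventually_nhds]
      with y h3 h4 using iff_of_true ⟨Φ, h1, h2⟩ ⟨Φ, h3, h4⟩
  obtain ⟨i, hi⟩ := A.cover x
  obtain ⟨P⟩ := H.exists_pc hx hi
  have e0 := P.Γ_inv.and ((P.cpi.eventually (ball_mem_nhds _ P.pos)).and
    (P.cont.eventually (ball_mem_nhds _ P.pos)))
  filter_upwards [e0] with y ⟨h1, h2, h3⟩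
  refine iff_of_false h fun ⟨Φ, _, h5⟩ => h ?_
  have hu : AnalyticOnNhd ℂ (fun w => f (P.Γ w)) (ball (a x, P.κ x) P.ρ) := fun w hw =>
    AnalyticAt.comp (g := fun z => f ((A.e i).symm z)) (f := P.G)
      (holAt_an (hf i) H.opn _ (P.maps hw)) (P.an w hw)
  have hm : ∀ w ∈ ball (a x, P.κ x) P.ρ, (w.1, P.κ y) ∈ ball (a x, P.κ x) P.ρ := fun w hw =>
    P.mem_ball' (by rw [← ball_prod_same] at hw; exact hw.1) h3
  have hv : AnalyticOnNhd ℂ (fun w : Cn q × (Fin P.r → ℂ) => f (P.Γ (w.1, P.κ y)))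
      (ball (a x, P.κ x) P.ρ) := fun w hw =>
    AnalyticAt.comp (g := fun w => f (P.Γ w)) (f := fun w : Cn q × (Fin P.r → ℂ) => (w.1, P.κ y))
      (hu _ (hm w hw)) (analyticAt_fst.prod analyticAt_const)
  have hy := P.mem_ball' h2 h3
  have h6 : ∀ᶠ w in 𝓝 (a y, P.κ y), f (P.Γ w) = Φ w.1 := by
    have h7 := (P.Γ_cont hy).tendsto
    rw [h1] at h7
    filter_upwards [h7.eventually h5, isOpen_ball.mem_nhds hy] with w h8 h9
    rw [h8, P.π_Γ h9]
  have h7 : Tendsto (fun w : Cn q × (Fin P.r → ℂ) => (w.1, P.κ y)) (𝓝 (a y, P.κ y))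
      (𝓝 (a y, P.κ y)) := Continuous.tendsto' (by fun_prop) _ _ rfl
  have h8 := hu.eqOn_of_preconnected_of_eventuallyEq hv (convex_ball _ _).isPreconnected hy (by
    filter_upwards [h6, h7.eventually h6] with w h9 h10 using h9.trans h10.symm)
  refine ⟨fun s => f (P.Γ (s, P.κ y)), AnalyticAt.comp (g := fun w => f (P.Γ w))
    (f := fun s => (s, P.κ y)) (hu _ (P.mem_ball' (mem_ball_self P.pos) h3))
    (analyticAt_id.prod analyticAt_const), ?_⟩
  filter_upwards [e0] with z ⟨h9, h10, h11⟩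
  exact (congrArg f h9).symm.trans (h8 (P.mem_ball' h10 h11))

theorem fc_all (H : Sbm A U a) (hU : IsPreconnected U) (hf : ∀ i, HolAt A i U f) {x y : M}
    (hx : x ∈ U) (hy : y ∈ U) (h : Fc a f x) : Fc a f y :=
  (hU.induction₂ (fun u v => Fc a f u ↔ Fc a f v)
    (fun _ hu => mem_nhdsWithin_of_mem_nhds (fc_loc H hf hu)) (fun _ _ _ _ _ _ => Iff.trans)
    (fun _ _ _ _ => Iff.symm) hx hy).1 h

end fac

/-! ### the intermediate cover -/

variable {n q : ℕ} {X : Type} [TopologicalSpace X] {A : Atl n X} {G : Type} [Group G]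
  (D : MonD A G) (M₁ : Subgroup G)

theorem cpt_mk : Cpt D D (QuotientGroup.mk : G → G ⧸ M₁) := fun _ _ _ _ => rfl

/-- the projection to the intermediate cover -/
def pq (e : D.cov G) : D.cov (G ⧸ M₁) := cmap D D QuotientGroup.mk e

theorem pq_surj : Function.Surjective (pq D M₁) :=
  surjective_cmap (cpt_mk D M₁) QuotientGroup.mk_surjective

theorem pq_eq_iff {x y : D.cov G} : pq D M₁ x = pq D M₁ y ↔ ∃ g ∈ M₁, g • x = y := by
  obtain ⟨i, hi⟩ := A.cover (D.pr x)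
  constructor
  · intro h
    have h1 : D.pr x = D.pr y := congrArg (D.pr (F := G ⧸ M₁)) h
    have h2 := congrArg (D.co i) h
    rw [pq, pq, co_cmap (cpt_mk D M₁), co_cmap (cpt_mk D M₁), QuotientGroup.eq] at h2
    refine ⟨_, inv_mem h2, D.ext_co (i := i) hi h1 ?_⟩
    rw [D.co_deck, inv_inv, mul_inv_cancel_left]
  · rintro ⟨g, hg, rfl⟩
    refine D.ext_co (i := i) hi rfl ?_
    rw [pq, pq, co_cmap (cpt_mk D M₁), co_cmap (cpt_mk D M₁), QuotientGroup.eq, D.co_deck,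
      inv_mul_cancel_left]
    exact inv_mem hg

variable {D M₁} {a : D.cov G → Cn q} {b : D.cov (G ⧸ M₁) → Cn q} {U : Set (D.cov G)}

theorem read_eq (hb : ∀ x, b (pq D M₁ x) = a x) (i : A.ι) (v : G) :
    (fun z => b (((D.atl (G ⧸ M₁)).e (i, QuotientGroup.mk v)).symm z)) =
      fun z => a (((D.atl G).e (i, v)).symm z) :=
  (read_cmap (cpt_mk D M₁) b (i, v)).symm.trans (funext fun _ => hb _)

theorem holV_down (ha : HolV (D.atl G) univ a) (hb : ∀ x, b (pq D M₁ x) = a x) :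
    HolV (D.atl (G ⧸ M₁)) univ b := by
  rintro ⟨i, w⟩
  obtain ⟨v, rfl⟩ := QuotientGroup.mk_surjective w
  rw [read_eq hb]
  exact ha (i, v)

theorem sbm_down (ha : HolV (D.atl G) univ a) (H : Sbm (D.atl G) U a)
    (hb : ∀ x, b (pq D M₁ x) = a x) : Sbm (D.atl (G ⧸ M₁)) (pq D M₁ '' U) b := by
  refine ⟨isOpenMap_cmap (cpt_mk D M₁) _ H.opn,
    fun r => (holV_down ha hb r).mono fun z hz => ⟨hz.1, mem_univ _⟩,
    eq_empty_of_forall_notMem ?_⟩
  rintro _ ⟨⟨x, hx, rfl⟩, ⟨i, w⟩, hw, hn⟩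
  obtain rfl : QuotientGroup.mk (D.co i x) = w := (co_cmap (cpt_mk D M₁) i x).symm.trans hw.2
  rw [read_eq hb] at hn
  exact hn (H.surj (i := (i, D.co i x)) hx ⟨hw.1, rfl⟩)

theorem holAt_up {h : D.cov (G ⧸ M₁) → ℂ}
    (hh : ∀ r, HolAt (D.atl (G ⧸ M₁)) r (pq D M₁ '' U) h) (r : (D.atl G).ι) :
    HolAt (D.atl G) r U fun x => h (pq D M₁ x) := by
  obtain ⟨i, v⟩ := r
  refine Eq.mpr (congrArg (DifferentiableOn ℂ · _) (read_cmap (cpt_mk D M₁) h (i, v))) ?_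
  exact DifferentiableOn.mono (hh (i, QuotientGroup.mk v)) fun z hz =>
    ⟨hz.1, _, hz.2, cmap_pt (cpt_mk D M₁) _ _ _⟩

variable [CompactSpace X] [T2Space X] [Finite A.ι]

/-- **separation on the cover** -/
theorem sep [Countable G] (K : Kah A) (P : Part A) (ha : HolV (D.atl G) univ a)
    (H : Sbm (D.atl G) U a) (hU : IsPreconnected U) {x₁ x₂ : D.cov G}
    (hF : a ⁻¹' {a x₁} ⊆ U) {C : Set (D.cov G)} (hC : IsCompact C)
    (hc : ∀ y ∈ a ⁻¹' {a x₁}, ∃ g : G, (∀ z, a (g • z) = a z) ∧ g • y ∈ C) (e : a x₂ = a x₁)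
    (hx : x₂ ∉ connectedComponentIn (a ⁻¹' {a x₁}) x₁) :
    ∃ h : D.cov G → ℂ, (∀ x ∈ U, Fc a h x) ∧ h x₁ ≠ h x₂ := by
  have hcl : IsClosed (a ⁻¹' {a x₁}) := isClosed_singleton.preimage (continuous_of_sm (sm_a ha))
  have lc : ∀ y ∈ a ⁻¹' {a x₁}, connectedComponentIn (a ⁻¹' {a x₁}) y ∈ 𝓝[a ⁻¹' {a x₁}] y := by
    intro y hy
    obtain ⟨r, hr⟩ := (D.atl G).cover y
    rw [← show a y = a x₁ from hy]
    exact Gauss.Eta.Sub.conn ⟨hr, H.anAt (hF hy) hr, H.surj (hF hy) hr⟩ self_mem_nhdsWithin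
  obtain ⟨K₁, k1, k2⟩ := stab_cocpt hcl lc hC hc
  set M₁ := stab G a x₁
  set F₁ := connectedComponentIn (a ⁻¹' {a x₁}) x₁ with hF₁
  have hp : Continuous (pq D M₁) := continuous_cmap (cpt_mk D M₁)
  have ho : IsOpenMap (pq D M₁) := isOpenMap_cmap (cpt_mk D M₁)
  have : Countable (G ⧸ M₁) := QuotientGroup.mk_surjective.countable
  obtain ⟨b, hb⟩ : ∃ b : D.cov (G ⧸ M₁) → Cn q, ∀ x, b (pq D M₁ x) = a x := by
    refine ⟨fun y => a (Function.surjInv (pq_surj D M₁) y), fun x => ?_⟩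
    obtain ⟨g, hg, h1⟩ := (pq_eq_iff D M₁).1 (Function.surjInv_eq (pq_surj D M₁) (pq D M₁ x))
    exact (hg.1 _).symm.trans (congrArg a h1)
  have hbh := holV_down ha hb
  have HB := sbm_down ha H hb
  have i1 : ∀ x y, pq D M₁ x = pq D M₁ y → x ∈ F₁ → y ∈ F₁ := fun x y h hx => by
    obtain ⟨g, hg, rfl⟩ := (pq_eq_iff D M₁).1 h
    exact stab_smul hg hx
  have := Cov.B.locallyCompact D (F := G ⧸ M₁)
  obtain ⟨T, ρ, t1, t2, t3, t4, t5, t6⟩ := exists_tube (continuous_of_sm (sm_ps hbh (a x₁)))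
    (Z := pq D M₁ '' F₁) (Z' := pq D M₁ '' (a ⁻¹' {a x₁} \ F₁))
    ((k1.image hp).of_isClosed_subset (closed_image ho (pq_surj D M₁) (closed_cc hcl rfl) i1) (by
      rintro _ ⟨y, hy, rfl⟩
      obtain ⟨g, hg, h1⟩ := k2 y hy
      exact ⟨_, h1, ((pq_eq_iff D M₁).2 ⟨g, hg, rfl⟩).symm⟩))
    (closed_image ho (pq_surj D M₁) (closed_diff hcl lc x₁) fun x y h hx =>
      ⟨by rw [mem_preimage, ← hb y, ← h, hb]; exact hx.1, fun hy => hx.2 (i1 y x h.symm hy)⟩)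
    (by rintro _ ⟨y, hy, rfl⟩ ⟨z, hz, h1⟩; exact hz.2 (i1 y z h1.symm hy)) HB.opn
    (image_mono ((connectedComponentIn_subset _ _).trans hF)) fun y hy => by
      obtain ⟨x, rfl⟩ := pq_surj D M₁ y
      rw [ps_eq, hb, sq_nonpos_iff, norm_eq_zero, sub_eq_zero] at hy
      by_cases h1 : x ∈ F₁
      · exact Or.inl ⟨x, h1, rfl⟩
      · exact Or.inr ⟨x, ⟨hy, h1⟩, rfl⟩
  have h1 : pq D M₁ x₁ ∈ T := t3 ⟨x₁, mem_connectedComponentIn rfl, rfl⟩
  obtain ⟨h, h2, h3⟩ := Dt.exists_sep (pullKah D (G ⧸ M₁) K) ⟨hbh, HB, t1, t2, t5, t6⟩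
    (D.pullPart (G ⧸ M₁) P) (Cov.E.cut_pullF D K P) h1 (x₂ := pq D M₁ x₂) ⟨x₂, hF e, rfl⟩
    (fun h => t4 h ⟨x₂, ⟨e, hx⟩, rfl⟩) (hb _) ((hb _).trans e)
  refine ⟨fun x => h (pq D M₁ x), fun x hx => fc_all H hU (holAt_up h2) (hF rfl) hx ?_, h3⟩
  have hψ := continuous_of_sm (sm_ps hbh (a x₁))
  obtain ⟨Φ, h4, h5⟩ := (HB.mono (T' := T ∩ {y | ps b (a x₁) y < 2 * ρ})
    (t1.inter (isOpen_lt hψ continuous_const)) fun y hy => t2 hy.1).fac (fun y hy => by
      convert t6.inter_right (isClosed_singleton.preimage (continuous_of_sm (sm_a hbh))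
        (t := {b y})) using 1
      refine subset_antisymm (fun z hz => ⟨⟨hz.1.1, le_of_lt hz.1.2⟩, hz.2⟩)
        fun z hz => ⟨⟨hz.1.1, ?_⟩, hz.2⟩
      have h4 : ps b (a x₁) y < 2 * ρ := hy.2
      rwa [ps_eq, ← show b z = b y from hz.2, ← ps_eq] at h4)
    (fun r => (h2 r).mono fun y hy => t2 hy.1) (x := pq D M₁ x₁) ⟨h1, by
      rw [mem_ofPred_eq, ps_eq, hb, sub_self, norm_zero, zero_pow two_ne_zero]; positivity⟩
  rw [hb] at h4
  exact ⟨Φ, h4, (hp.continuousAt.eventually h5).mono fun z hz => hz.trans (congrArg Φ (hb z))⟩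

variable (D) in
/-- **SEP** -/
theorem sepH [Countable G] (K : Kah A) (P : Part A) (H : Subgroup G) : Mn.SepH D H := by
  intro q _ a L lam S hD hS t ht x₁ x₂ e1 e2 hx
  have ha : HolV (D.atl G) univ a := Sec.hol_univ hD.hol
  have e0 : ∀ y, S.a y = t ↔ a y = a x₁ := fun y => by
    rw [← e1, hS.a_eq]
    exact (WithLp.ofLp_injective 2).eq_iff
  have eF : S.a ⁻¹' {t} = a ⁻¹' {a x₁} := Set.ext e0
  obtain ⟨C, hC, hc⟩ := S.prop {t} isCompact_singleton
  obtain ⟨h, h1, h2⟩ := sep K P ha (U := S.U) ⟨S.op, fun r => (ha r).mono fun z hz =>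
    ⟨hz.1, mem_univ _⟩, eq_empty_of_forall_notMem fun y hy =>
      (hS.U_eq ▸ hy.1 : y ∈ (Crit (D.atl G) univ a)ᶜ) ⟨mem_univ _, hy.2⟩⟩ S.pre
    (fun y hy => S.reg y (((e0 y).2 hy).symm ▸ ht)) hC (fun y hy => by
      obtain ⟨g, hg, h3, h4⟩ := hc y ((e0 y).2 hy)
      refine ⟨g, fun z => WithLp.ofLp_injective 2 ?_, h4⟩
      have h5 := S.eqv g z
      rwa [h3, add_zero, S.LH g hg, hS.a_eq] at h5) ((e0 _).1 e2) (eF ▸ hx)
  refine ⟨h, fun x hx => ?_, h2⟩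
  obtain ⟨Φ, h3, h4⟩ := h1 x hx
  refine ⟨fun s => Φ (WithLp.toLp 2 s), ?_, ?_⟩
  · rw [hS.a_eq]
    exact AnalyticAt.comp (g := Φ) (f := fun s => WithLp.toLp 2 s) h3 (an_toLp _).1
  · rw [hS.a_eq]
    exact h4

variable (D) in
theorem sepH' [PreconnectedSpace (D.cov G)] (K : Kah A) (P : Part A) (H : Subgroup G) :
    Mn.SepH D H := fun q hq a L lam S hD hS t ht x₁ =>
  have : Nonempty X := ⟨D.pr x₁⟩
  have : Countable G := Cov.E.countable_fib D
  sepH D K P H q hq a L lam S hD hS t ht x₁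

end

end Crest.Agent.X261.Sep93
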